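import Mathlib

/-!
# Square-difference-free sets: a variable-length digit construction

Helper development for problem P042.  We build, for every `N`, a subset of `[0, N)`
with no two elements differing by a nonzero perfect square, of size at least
`c * N ^ (47 / 64)`.

The key notion: an integer `d` is *locally non-square* (`NSq d`) if it fails to be a
square modulo some integer.  A finite set of integers is `Good` if all differences of
distinct elements are locally non-square.  Good sets are closed under the affine maps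
`x ↦ s ^ 2 * x + t`, and two blocks `1681 * A₁ + (41 * η + 3)` and
`42025 * A₂ + (205 * t + r)` (with `r` ranging over ten residues modulo `205`)
can be merged.  This gives `F (42025 X) ≥ 41 F (25 X) + 2050 F (X)` for the maximal
size `F (X)` of a good subset of `[0, X)`.
-/

namespace Vale.Agent.Lib.P042

/-- `NSq d`: the integer `d` is not a square modulo some integer `m`. -/
def NSq (d : ℤ) : Prop := ∃ m : ℤ, ∀ z : ℤ, ¬ (m ∣ z ^ 2 - d)

theorem NSq.ne_sq {d : ℤ} (h : NSq d) (z : ℤ) : z ^ 2 ≠ d := by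
  obtain ⟨m, hm⟩ := h
  intro hz
  exact hm z (by rw [hz, sub_self]; exact dvd_zero m)

theorem NSq.scale {d : ℤ} (h : NSq d) {s : ℤ} (hs : s ≠ 0) : NSq (s ^ 2 * d) := by
  obtain ⟨m, hm⟩ := h
  refine ⟨s ^ 2 * m, fun w hw => ?_⟩
  have h1 : s ^ 2 ∣ w ^ 2 := by
    have h2 : s ^ 2 ∣ w ^ 2 - s ^ 2 * d := dvd_trans (dvd_mul_right _ _) hw
    have h3 : s ^ 2 ∣ s ^ 2 * d := dvd_mul_right _ _
    have h4 := dvd_add h2 h3
    simpa using h4
  have h5 : s ∣ w := (Int.pow_dvd_pow_iff two_ne_zero).mp h1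
  obtain ⟨w', rfl⟩ := h5
  apply hm w'
  have e : (s * w') ^ 2 - s ^ 2 * d = s ^ 2 * (w' ^ 2 - d) := by ring
  rw [e] at hw
  exact (mul_dvd_mul_iff_left (pow_ne_zero 2 hs)).mp hw

theorem NSq.of_residue {d δ q : ℤ} (hq : ∀ z : ℤ, ¬ (q ∣ z ^ 2 - δ)) (hd : q ∣ d - δ) :
    NSq d :=
  ⟨q, fun z hz => hq z (by
    have e : z ^ 2 - δ = (z ^ 2 - d) + (d - δ) := by ring
    rw [e]; exact dvd_add hz hd)⟩

/-- If `s ∣ d` but `s ^ 2 ∤ d`, where `s` divides every integer whose square it divides,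
then `d` is not a square modulo `s ^ 2`. -/
theorem NSq.of_dvd_not_sq_dvd {s d : ℤ} (hs : ∀ z : ℤ, s ∣ z ^ 2 → s ∣ z)
    (h1 : s ∣ d) (h2 : ¬ s ^ 2 ∣ d) : NSq d := by
  refine ⟨s ^ 2, fun z hz => h2 ?_⟩
  have h3 : s ∣ z ^ 2 := by
    have h4 : s ∣ z ^ 2 - d := dvd_trans (dvd_pow_self s two_ne_zero) hz
    have h5 := dvd_add h4 h1
    simpa using h5
  have h6 : s ^ 2 ∣ z ^ 2 := pow_dvd_pow_of_dvd (hs z h3) 2
  have h7 := dvd_sub h6 hz
  simpa using h7

theorem dvd_of_dvd_sq_41 (z : ℤ) (h : (41 : ℤ) ∣ z ^ 2) : (41 : ℤ) ∣ z := by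
  have hp : Prime (41 : ℤ) := Int.prime_iff_natAbs_prime.mpr (by norm_num)
  exact hp.dvd_of_dvd_pow h

theorem dvd_of_dvd_sq_5 (z : ℤ) (h : (5 : ℤ) ∣ z ^ 2) : (5 : ℤ) ∣ z := by
  have hp : Prime (5 : ℤ) := Int.prime_iff_natAbs_prime.mpr (by norm_num)
  exact hp.dvd_of_dvd_pow h

theorem dvd_of_dvd_sq_205 (z : ℤ) (h : (205 : ℤ) ∣ z ^ 2) : (205 : ℤ) ∣ z := by
  have h5 : (5 : ℤ) ∣ z := dvd_of_dvd_sq_5 z (dvd_trans (by norm_num) h)
  have h41 : (41 : ℤ) ∣ z := dvd_of_dvd_sq_41 z (dvd_trans (by norm_num) h)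
  omega

theorem nonsq_mod_41 (δ : ℤ) (h : ∀ z : ZMod 41, z ^ 2 ≠ (δ : ZMod 41)) :
    ∀ z : ℤ, ¬ ((41 : ℤ) ∣ z ^ 2 - δ) := by
  intro z hz
  apply h (z : ZMod 41)
  have h1 := (ZMod.intCast_zmod_eq_zero_iff_dvd (z ^ 2 - δ) 41).mpr (by exact_mod_cast hz)
  push_cast at h1
  exact sub_eq_zero.mp h1

theorem nonsq_mod_5 (δ : ℤ) (h : ∀ z : ZMod 5, z ^ 2 ≠ (δ : ZMod 5)) :
    ∀ z : ℤ, ¬ ((5 : ℤ) ∣ z ^ 2 - δ) := by
  intro z hz
  apply h (z : ZMod 5)
  have h1 := (ZMod.intCast_zmod_eq_zero_iff_dvd (z ^ 2 - δ) 5).mpr (by exact_mod_cast hz)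
  push_cast at h1
  exact sub_eq_zero.mp h1

/-- A finite set of integers all of whose differences of distinct elements are locally
non-square. -/
def Good (A : Finset ℤ) : Prop := ∀ x ∈ A, ∀ y ∈ A, x ≠ y → NSq (x - y)

/-- `Has X k`: there is a good subset of `[0, X)` with at least `k` elements. -/
def Has (X k : ℕ) : Prop :=
  ∃ A : Finset ℤ, (∀ x ∈ A, 0 ≤ x ∧ x < (X : ℤ)) ∧ Good A ∧ k ≤ A.card

theorem Has.one {X : ℕ} (hX : 1 ≤ X) : Has X 1 := by
  refine ⟨{0}, ?_, ?_, ?_⟩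
  · intro x hx
    rw [Finset.mem_singleton] at hx
    subst hx
    exact ⟨le_refl _, by exact_mod_cast hX⟩
  · intro x hx y hy hne
    rw [Finset.mem_singleton] at hx hy
    exact absurd (hx.trans hy.symm) hne
  · simp

theorem Has.mono {X X' k : ℕ} (h : Has X k) (hX : X ≤ X') : Has X' k := by
  obtain ⟨A, hA, gA, cA⟩ := h
  exact ⟨A, fun x hx => ⟨(hA x hx).1, lt_of_lt_of_le (hA x hx).2 (by exact_mod_cast hX)⟩, gA, cA⟩

/-- The ten residues modulo `205` used by the construction. -/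
def R10 : Finset ℤ := {0, 79, 37, 71, 113, 150, 148, 182, 56, 14}

theorem R10_card : R10.card = 10 := by decide

theorem R10_range : ∀ r ∈ R10, 0 ≤ r ∧ r < 205 := by decide

theorem R10_cross : ∀ r ∈ R10, (∀ z : ZMod 41, z ^ 2 ≠ ((r - 3 : ℤ) : ZMod 41)) ∧
    (∀ z : ZMod 41, z ^ 2 ≠ ((3 - r : ℤ) : ZMod 41)) := by decide

theorem R10_sep : ∀ r ∈ R10, ∀ r' ∈ R10, r ≠ r' →
    (∀ z : ZMod 5, z ^ 2 ≠ ((r - r' : ℤ) : ZMod 5)) ∨
    (∀ z : ZMod 41, z ^ 2 ≠ ((r - r' : ℤ) : ZMod 41)) := by decide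

theorem block1_good {A : Finset ℤ} (gA : Good A) (a a' η η' : ℤ) (ha : a ∈ A) (ha' : a' ∈ A)
    (hη : 0 ≤ η ∧ η < 41) (hη' : 0 ≤ η' ∧ η' < 41)
    (hne : 1681 * a + 41 * η + 3 ≠ 1681 * a' + 41 * η' + 3) :
    NSq ((1681 * a + 41 * η + 3) - (1681 * a' + 41 * η' + 3)) := by
  by_cases hηη : η = η'
  · subst hηη
    have hne' : a ≠ a' := by
      rintro rfl
      exact hne rfl
    have h := (gA a ha a' ha' hne').scale (s := 41) (by norm_num)
    have e : (1681 * a + 41 * η + 3) - (1681 * a' + 41 * η + 3) = 41 ^ 2 * (a - a') := by ring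
    rw [e]
    exact h
  · apply NSq.of_dvd_not_sq_dvd dvd_of_dvd_sq_41
    · exact ⟨41 * (a - a') + (η - η'), by ring⟩
    · rintro ⟨c, hc⟩
      have h41 : (41 : ℤ) ^ 2 = 1681 := by norm_num
      rw [h41] at hc
      omega

theorem block2_good {A : Finset ℤ} (gA : Good A) (a a' t t' r r' : ℤ) (ha : a ∈ A)
    (ha' : a' ∈ A) (ht : 0 ≤ t ∧ t < 205) (ht' : 0 ≤ t' ∧ t' < 205) (hr : r ∈ R10)
    (hr' : r' ∈ R10)
    (hne : 42025 * a + (205 * t + r) ≠ 42025 * a' + (205 * t' + r')) :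
    NSq ((42025 * a + (205 * t + r)) - (42025 * a' + (205 * t' + r'))) := by
  by_cases hrr : r = r'
  · subst hrr
    by_cases htt : t = t'
    · subst htt
      have hne' : a ≠ a' := by
        rintro rfl
        exact hne rfl
      have h := (gA a ha a' ha' hne').scale (s := 205) (by norm_num)
      have e : (42025 * a + (205 * t + r)) - (42025 * a' + (205 * t + r))
          = 205 ^ 2 * (a - a') := by ring
      rw [e]
      exact h
    · apply NSq.of_dvd_not_sq_dvd dvd_of_dvd_sq_205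
      · exact ⟨205 * (a - a') + (t - t'), by ring⟩
      · rintro ⟨c, hc⟩
        have h205 : (205 : ℤ) ^ 2 = 42025 := by norm_num
        rw [h205] at hc
        omega
  · rcases R10_sep r hr r' hr' hrr with h5 | h41
    · exact NSq.of_residue (nonsq_mod_5 _ h5) ⟨8405 * (a - a') + 41 * (t - t'), by ring⟩
    · exact NSq.of_residue (nonsq_mod_41 _ h41) ⟨1025 * (a - a') + 5 * (t - t'), by ring⟩

theorem cross_good (a a' η t r : ℤ) (hr : r ∈ R10) :
    NSq ((1681 * a + 41 * η + 3) - (42025 * a' + (205 * t + r))) ∧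
    NSq ((42025 * a' + (205 * t + r)) - (1681 * a + 41 * η + 3)) := by
  obtain ⟨h1, h2⟩ := R10_cross r hr
  constructor
  · exact NSq.of_residue (nonsq_mod_41 _ h2) ⟨41 * a + η - 1025 * a' - 5 * t, by ring⟩
  · exact NSq.of_residue (nonsq_mod_41 _ h1) ⟨1025 * a' + 5 * t - 41 * a - η, by ring⟩

/-- The recursion: a good subset of `[0, 25 X)` with `k₁` elements and a good subset of
`[0, X)` with `k₂` elements give a good subset of `[0, 42025 X)` with
`41 k₁ + 2050 k₂` elements. -/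
theorem Has.step {X k₁ k₂ : ℕ} (h₁ : Has (25 * X) k₁) (h₂ : Has X k₂) :
    Has (42025 * X) (41 * k₁ + 2050 * k₂) := by
  obtain ⟨A₁, hA₁, gA₁, cA₁⟩ := h₁
  obtain ⟨A₂, hA₂, gA₂, cA₂⟩ := h₂
  classical
  set f₁ : ℤ × ℤ → ℤ := fun p => 1681 * p.1 + 41 * p.2 + 3 with hf₁
  set f₂ : ℤ × (ℤ × ℤ) → ℤ := fun p => 42025 * p.1 + (205 * p.2.1 + p.2.2) with hf₂
  set S₁ := A₁ ×ˢ Finset.Ico (0 : ℤ) 41 with hS₁
  set S₂ := A₂ ×ˢ (Finset.Ico (0 : ℤ) 205 ×ˢ R10) with hS₂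
  have inj₁ : Set.InjOn f₁ ↑S₁ := by
    rintro ⟨a, η⟩ hp ⟨a', η'⟩ hp' h
    simp only [hS₁, Finset.coe_product, Set.mem_prod, Finset.mem_coe, Finset.mem_Ico] at hp hp'
    simp only [hf₁] at h
    have h' : a = a' ∧ η = η' := by omega
    rw [h'.1, h'.2]
  have inj₂ : Set.InjOn f₂ ↑S₂ := by
    rintro ⟨a, t, r⟩ hp ⟨a', t', r'⟩ hp' h
    simp only [hS₂, Finset.coe_product, Set.mem_prod, Finset.mem_coe, Finset.mem_Ico] at hp hp'
    have hr := R10_range r hp.2.2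
    have hr' := R10_range r' hp'.2.2
    simp only [hf₂] at h
    have h' : a = a' ∧ t = t' ∧ r = r' := by omega
    rw [h'.1, h'.2.1, h'.2.2]
  have disj : Disjoint (S₁.image f₁) (S₂.image f₂) := by
    rw [Finset.disjoint_left]
    intro x hx₁ hx₂
    obtain ⟨⟨a, η⟩, hp, rfl⟩ := Finset.mem_image.mp hx₁
    obtain ⟨⟨a', t, r⟩, hp', h⟩ := Finset.mem_image.mp hx₂
    simp only [hS₂, Finset.mem_product] at hp'
    have hc := (cross_good a a' η t r hp'.2.2).1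
    apply hc.ne_sq 0
    simp only [hf₁, hf₂] at h ⊢
    rw [h]
    ring
  refine ⟨S₁.image f₁ ∪ S₂.image f₂, ?_, ?_, ?_⟩
  · intro x hx
    rcases Finset.mem_union.mp hx with hx | hx
    · obtain ⟨⟨a, η⟩, hp, rfl⟩ := Finset.mem_image.mp hx
      simp only [hS₁, Finset.mem_product, Finset.mem_Ico] at hp
      have hb := hA₁ a hp.1
      simp only [hf₁]
      push_cast at hb ⊢
      constructor <;> omega
    · obtain ⟨⟨a, t, r⟩, hp, rfl⟩ := Finset.mem_image.mp hx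
      simp only [hS₂, Finset.mem_product, Finset.mem_Ico] at hp
      have hb := hA₂ a hp.1
      have hr := R10_range r hp.2.2
      simp only [hf₂]
      push_cast at hb ⊢
      constructor <;> omega
  · intro x hx y hy hne
    rcases Finset.mem_union.mp hx with hx | hx <;> rcases Finset.mem_union.mp hy with hy | hy
    · obtain ⟨⟨a, η⟩, hp, rfl⟩ := Finset.mem_image.mp hx
      obtain ⟨⟨a', η'⟩, hp', rfl⟩ := Finset.mem_image.mp hy
      simp only [hS₁, Finset.mem_product, Finset.mem_Ico] at hp hp'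
      exact block1_good gA₁ a a' η η' hp.1 hp'.1 hp.2 hp'.2 hne
    · obtain ⟨⟨a, η⟩, hp, rfl⟩ := Finset.mem_image.mp hx
      obtain ⟨⟨a', t, r⟩, hp', rfl⟩ := Finset.mem_image.mp hy
      simp only [hS₂, Finset.mem_product] at hp'
      exact (cross_good a a' η t r hp'.2.2).1
    · obtain ⟨⟨a', t, r⟩, hp', rfl⟩ := Finset.mem_image.mp hx
      obtain ⟨⟨a, η⟩, hp, rfl⟩ := Finset.mem_image.mp hy
      simp only [hS₂, Finset.mem_product] at hp'
      exact (cross_good a a' η t r hp'.2.2).2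
    · obtain ⟨⟨a, t, r⟩, hp, rfl⟩ := Finset.mem_image.mp hx
      obtain ⟨⟨a', t', r'⟩, hp', rfl⟩ := Finset.mem_image.mp hy
      simp only [hS₂, Finset.mem_product, Finset.mem_Ico] at hp hp'
      exact block2_good gA₂ a a' t t' r r' hp.1 hp'.1 hp.2.1 hp'.2.1 hp.2.2 hp'.2.2 hne
  · rw [Finset.card_union_of_disjoint disj, Finset.card_image_of_injOn inj₁,
      Finset.card_image_of_injOn inj₂]
    have e1 : (Finset.Ico (0 : ℤ) 41).card = 41 := by simp
    have e2 : (Finset.Ico (0 : ℤ) 205).card = 205 := by simp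
    simp only [hS₁, hS₂, Finset.card_product, e1, e2, R10_card]
    omega

theorem rpow_lower_25 : ((106319 : ℝ) / 10000) ≤ (25 : ℝ) ^ ((47 : ℝ) / 64) := by
  have h : ((106319 : ℝ) / 10000) ^ (64 : ℕ) ≤ (25 : ℝ) ^ (47 : ℕ) := by norm_num
  calc (106319 : ℝ) / 10000
      = (((106319 : ℝ) / 10000) ^ (64 : ℕ)) ^ ((1 : ℝ) / 64) := by
        rw [← Real.rpow_natCast, ← Real.rpow_mul (by norm_num)]
        norm_num
    _ ≤ ((25 : ℝ) ^ (47 : ℕ)) ^ ((1 : ℝ) / 64) :=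
        Real.rpow_le_rpow (by positivity) h (by norm_num)
    _ = (25 : ℝ) ^ ((47 : ℝ) / 64) := by
        rw [← Real.rpow_natCast, ← Real.rpow_mul (by norm_num)]
        norm_num

theorem rpow_upper_kappa :
    ((42025 : ℝ) * 5001 / 5000) ^ ((47 : ℝ) / 64) ≤ (24858 : ℝ) / 10 := by
  have h : ((42025 : ℝ) * 5001 / 5000) ^ (47 : ℕ) ≤ ((24858 : ℝ) / 10) ^ (64 : ℕ) := by
    norm_num
  calc ((42025 : ℝ) * 5001 / 5000) ^ ((47 : ℝ) / 64)
      = (((42025 : ℝ) * 5001 / 5000) ^ (47 : ℕ)) ^ ((1 : ℝ) / 64) := by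
        rw [← Real.rpow_natCast, ← Real.rpow_mul (by norm_num)]
        norm_num
    _ ≤ (((24858 : ℝ) / 10) ^ (64 : ℕ)) ^ ((1 : ℝ) / 64) :=
        Real.rpow_le_rpow (by positivity) h (by norm_num)
    _ = (24858 : ℝ) / 10 := by
        rw [← Real.rpow_natCast, ← Real.rpow_mul (by norm_num)]
        norm_num

/-- Good subsets of `[0, Y)` of size at least `c * Y ^ (47 / 64)` exist for all `Y ≥ 1`. -/
theorem has_rpow : ∃ c : ℝ, 0 < c ∧ ∀ Y : ℕ, 1 ≤ Y →
    ∃ k : ℕ, Has Y k ∧ c * (Y : ℝ) ^ ((47 : ℝ) / 64) ≤ (k : ℝ) := by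
  have hγ0 : (0 : ℝ) ≤ (47 : ℝ) / 64 := by norm_num
  have hY₀pos : (0 : ℝ) < ((42025 * 5000 : ℕ) : ℝ) ^ ((47 : ℝ) / 64) := by positivity
  refine ⟨(((42025 * 5000 : ℕ) : ℝ) ^ ((47 : ℝ) / 64))⁻¹, inv_pos.mpr hY₀pos, ?_⟩
  intro Y
  induction Y using Nat.strong_induction_on with
  | _ Y ih =>
    intro hY
    by_cases hlt : Y < 42025 * 5000
    · refine ⟨1, Has.one hY, ?_⟩
      have h1 : (Y : ℝ) ^ ((47 : ℝ) / 64) ≤ ((42025 * 5000 : ℕ) : ℝ) ^ ((47 : ℝ) / 64) :=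
        Real.rpow_le_rpow (by positivity) (by exact_mod_cast hlt.le) hγ0
      rw [inv_mul_le_iff₀ hY₀pos]
      simpa using h1
    · have hX1 : 5000 ≤ Y / 42025 := by omega
      have hXY : 42025 * (Y / 42025) ≤ Y := by omega
      have hYX : Y < 42025 * (Y / 42025 + 1) := by omega
      obtain ⟨k₁, hk₁, hc₁⟩ := ih (25 * (Y / 42025)) (by omega) (by omega)
      obtain ⟨k₂, hk₂, hc₂⟩ := ih (Y / 42025) (by omega) (by omega)
      refine ⟨41 * k₁ + 2050 * k₂, (hk₁.step hk₂).mono hXY, ?_⟩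
      set X : ℕ := Y / 42025 with hX
      set c : ℝ := (((42025 * 5000 : ℕ) : ℝ) ^ ((47 : ℝ) / 64))⁻¹ with hc
      have hcpos : 0 < c := inv_pos.mpr hY₀pos
      have hXr : (5000 : ℝ) ≤ (X : ℝ) := by exact_mod_cast hX1
      have hXpos : (0 : ℝ) < (X : ℝ) := by linarith
      set x : ℝ := (X : ℝ) ^ ((47 : ℝ) / 64) with hx
      have hxpos : 0 < x := Real.rpow_pos_of_pos hXpos _
      have hYle : (Y : ℝ) ≤ ((42025 : ℝ) * 5001 / 5000) * (X : ℝ) := by
        have h2 : (Y : ℝ) ≤ 42025 * ((X : ℝ) + 1) := by exact_mod_cast hYX.le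
        linarith
      have hA : (Y : ℝ) ^ ((47 : ℝ) / 64) ≤ (24858 : ℝ) / 10 * x := by
        calc (Y : ℝ) ^ ((47 : ℝ) / 64)
            ≤ (((42025 : ℝ) * 5001 / 5000) * (X : ℝ)) ^ ((47 : ℝ) / 64) :=
              Real.rpow_le_rpow (by positivity) hYle hγ0
          _ = ((42025 : ℝ) * 5001 / 5000) ^ ((47 : ℝ) / 64) * x := by
              rw [Real.mul_rpow (by positivity) hXpos.le]
          _ ≤ (24858 : ℝ) / 10 * x :=
              mul_le_mul_of_nonneg_right rpow_upper_kappa hxpos.le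
      have hB : (106319 : ℝ) / 10000 * x ≤ ((25 * X : ℕ) : ℝ) ^ ((47 : ℝ) / 64) := by
        have e : ((25 * X : ℕ) : ℝ) = 25 * (X : ℝ) := by push_cast; ring
        rw [e, Real.mul_rpow (by norm_num) hXpos.le]
        exact mul_le_mul_of_nonneg_right rpow_lower_25 hxpos.le
      have hc₁' : c * ((106319 : ℝ) / 10000 * x) ≤ (k₁ : ℝ) :=
        le_trans (mul_le_mul_of_nonneg_left hB hcpos.le) hc₁
      have hcx : 0 < c * x := mul_pos hcpos hxpos
      calc c * (Y : ℝ) ^ ((47 : ℝ) / 64)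
          ≤ c * ((24858 : ℝ) / 10 * x) := mul_le_mul_of_nonneg_left hA hcpos.le
        _ ≤ 41 * (c * ((106319 : ℝ) / 10000 * x)) + 2050 * (c * x) := by nlinarith
        _ ≤ 41 * (k₁ : ℝ) + 2050 * (k₂ : ℝ) := by linarith
        _ = ((41 * k₁ + 2050 * k₂ : ℕ) : ℝ) := by push_cast; ring

end Vale.Agent.Lib.P042
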