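import Mathlib
import Vale.Agent.Lib.P042.SqDiff

/-!
# P042: the exact exponent of the variable-length construction

The recursion `Has (25 X) k₁ → Has X k₂ → Has (42025 X) (41 k₁ + 2050 k₂)` gives, for every
real `γ ≥ 0` with `42025 ^ γ ≤ 41 * 25 ^ γ + 2050`, good sets of size at least
`((Y + 26) / 42051) ^ γ` in `[0, Y)`.  The shift by `26` absorbs the rounding of `Y` to a
multiple of `42025`, so no slack is needed in the exponent.
-/

namespace Vale.Agent.Lib.P042

/-- A good subset of `[0, N)` with at least `k` elements yields a subset of `{1, …, N}` with at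
least `k` elements and no positive square difference. -/
theorem Has.toNat {N k : ℕ} (h : Has N k) :
    ∃ A : Finset ℕ, A ⊆ Finset.Icc 1 N ∧
      (∀ a ∈ A, ∀ b ∈ A, ∀ n : ℕ, 1 ≤ n → a ≠ b + n ^ 2) ∧ k ≤ A.card := by
  obtain ⟨A, hA, gA, cA⟩ := h
  refine ⟨A.image (fun x => (x + 1).toNat), ?_, ?_, ?_⟩
  · intro a ha
    obtain ⟨x, hx, rfl⟩ := Finset.mem_image.mp ha
    have hb := hA x hx
    rw [Finset.mem_Icc]
    omega
  · intro a ha b hb n hn hab
    obtain ⟨x, hx, rfl⟩ := Finset.mem_image.mp ha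
    obtain ⟨y, hy, rfl⟩ := Finset.mem_image.mp hb
    have hx' := hA x hx
    have hy' := hA y hy
    have hxy : (n : ℤ) ^ 2 = x - y := by
      have h1 : (((x + 1).toNat : ℕ) : ℤ) = (((y + 1).toNat : ℕ) : ℤ) + (n : ℤ) ^ 2 := by
        exact_mod_cast hab
      rw [Int.toNat_of_nonneg (by omega), Int.toNat_of_nonneg (by omega)] at h1
      linarith
    have hne : x ≠ y := by
      rintro rfl
      have h2 : (n : ℤ) ^ 2 = 0 := by linarith
      have h3 : (n : ℤ) = 0 := by simpa using h2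
      omega
    exact (gA x hx y hy hne).ne_sq (n : ℤ) hxy
  · have hinj : Set.InjOn (fun x : ℤ => (x + 1).toNat) ↑A := by
      intro x hx y hy hxy
      have hx' := hA x hx
      have hy' := hA y hy
      simp only at hxy
      omega
    rw [Finset.card_image_of_injOn hinj]
    exact cA

/-- Good subsets of `[0, Y)` of size at least `((Y + 26) / 42051) ^ γ`, for every exponent
`γ ≥ 0` with `42025 ^ γ ≤ 41 * 25 ^ γ + 2050`. -/
theorem has_root (γ : ℝ) (hγ0 : 0 ≤ γ)
    (hγ : (42025 : ℝ) ^ γ ≤ 41 * (25 : ℝ) ^ γ + 2050) :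
    ∀ Y : ℕ, 1 ≤ Y → ∃ k : ℕ, Has Y k ∧ (((Y : ℝ) + 26) / 42051) ^ γ ≤ (k : ℝ) := by
  intro Y
  induction Y using Nat.strong_induction_on with
  | _ Y ih =>
    intro hY
    by_cases hlt : Y < 42025
    · refine ⟨1, Has.one hY, ?_⟩
      have h1 : ((Y : ℝ) + 26) / 42051 ≤ 1 := by
        rw [div_le_one (by norm_num)]
        have h2 : (Y : ℝ) ≤ 42025 := by exact_mod_cast hlt.le
        linarith
      have h0 : (0 : ℝ) ≤ ((Y : ℝ) + 26) / 42051 := by positivity
      simpa using Real.rpow_le_one h0 h1 hγ0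
    · have hX1 : 1 ≤ Y / 42025 := by omega
      have hXY : 42025 * (Y / 42025) ≤ Y := by omega
      have hYX : Y < 42025 * (Y / 42025 + 1) := by omega
      obtain ⟨k₁, hk₁, hc₁⟩ := ih (25 * (Y / 42025)) (by omega) (by omega)
      obtain ⟨k₂, hk₂, hc₂⟩ := ih (Y / 42025) (by omega) (by omega)
      refine ⟨41 * k₁ + 2050 * k₂, (hk₁.step hk₂).mono hXY, ?_⟩
      set X : ℕ := Y / 42025 with hX
      have hXpos : (0 : ℝ) ≤ (X : ℝ) := by positivity
      set z : ℝ := (((X : ℝ) + 26 / 25) / 42051) ^ γ with hz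
      have hzpos : 0 ≤ z := by positivity
      have hYle : ((Y : ℝ) + 26) / 42051 ≤ 42025 * (((X : ℝ) + 26 / 25) / 42051) := by
        have h2 : (Y : ℝ) + 1 ≤ 42025 * ((X : ℝ) + 1) := by exact_mod_cast hYX
        rw [← mul_div_assoc]
        apply div_le_div_of_nonneg_right _ (by norm_num)
        linarith
      have hA : (((Y : ℝ) + 26) / 42051) ^ γ ≤ (42025 : ℝ) ^ γ * z := by
        calc (((Y : ℝ) + 26) / 42051) ^ γ
            ≤ (42025 * (((X : ℝ) + 26 / 25) / 42051)) ^ γ :=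
              Real.rpow_le_rpow (by positivity) hYle hγ0
          _ = (42025 : ℝ) ^ γ * z := by
              rw [Real.mul_rpow (by norm_num) (by positivity)]
      have hB : (25 : ℝ) ^ γ * z = ((((25 * X : ℕ) : ℝ) + 26) / 42051) ^ γ := by
        rw [hz, ← Real.mul_rpow (by norm_num) (by positivity)]
        congr 1
        push_cast
        ring
      have hC : z ≤ (((X : ℝ) + 26) / 42051) ^ γ := by
        apply Real.rpow_le_rpow (by positivity) _ hγ0
        apply div_le_div_of_nonneg_right _ (by norm_num)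
        linarith
      have h1 : (25 : ℝ) ^ γ * z ≤ (k₁ : ℝ) := by
        rw [hB]
        exact hc₁
      have h2 : z ≤ (k₂ : ℝ) := hC.trans hc₂
      calc (((Y : ℝ) + 26) / 42051) ^ γ
          ≤ (42025 : ℝ) ^ γ * z := hA
        _ ≤ (41 * (25 : ℝ) ^ γ + 2050) * z := mul_le_mul_of_nonneg_right hγ hzpos
        _ = 41 * ((25 : ℝ) ^ γ * z) + 2050 * z := by ring
        _ ≤ 41 * (k₁ : ℝ) + 2050 * (k₂ : ℝ) := by linarith
        _ = ((41 * k₁ + 2050 * k₂ : ℕ) : ℝ) := by push_cast; ring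

/-- For every exponent `γ ≥ 0` with `42025 ^ γ ≤ 41 * 25 ^ γ + 2050` and every `N ≥ 1` there is
a subset of `{1, …, N}` without positive square differences of size at least
`(N / 42051) ^ γ`. -/
theorem sqdiff_root (γ : ℝ) (hγ0 : 0 ≤ γ)
    (hγ : (42025 : ℝ) ^ γ ≤ 41 * (25 : ℝ) ^ γ + 2050) (N : ℕ) (hN : 1 ≤ N) :
    ∃ A : Finset ℕ, A ⊆ Finset.Icc 1 N ∧
      (∀ a ∈ A, ∀ b ∈ A, ∀ n : ℕ, 1 ≤ n → a ≠ b + n ^ 2) ∧
      ((N : ℝ) / 42051) ^ γ ≤ (A.card : ℝ) := by
  obtain ⟨k, hk, hc⟩ := has_root γ hγ0 hγ N hN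
  obtain ⟨A, hA, hsq, hcard⟩ := hk.toNat
  refine ⟨A, hA, hsq, ?_⟩
  have h1 : ((N : ℝ) / 42051) ^ γ ≤ (((N : ℝ) + 26) / 42051) ^ γ := by
    apply Real.rpow_le_rpow (by positivity) _ hγ0
    apply div_le_div_of_nonneg_right _ (by norm_num)
    linarith
  have h2 : (k : ℝ) ≤ (A.card : ℝ) := by exact_mod_cast hcard
  linarith

/-- A rational lower bound for a rational power, from an inequality of natural numbers. -/
theorem rpow_nat_lower {a b B p q : ℕ} (hb : 0 < b) (hq : 0 < q)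
    (h : a ^ q ≤ B ^ p * b ^ q) : (a : ℝ) / b ≤ (B : ℝ) ^ ((p : ℝ) / q) := by
  have hbR : (0 : ℝ) < b := by exact_mod_cast hb
  have hqR : (0 : ℝ) < q := by exact_mod_cast hq
  have h1 : ((a : ℝ) / b) ^ q ≤ (B : ℝ) ^ p := by
    rw [div_pow, div_le_iff₀ (pow_pos hbR q)]
    exact_mod_cast h
  calc (a : ℝ) / b = (((a : ℝ) / b) ^ q) ^ ((1 : ℝ) / q) := by
        rw [← Real.rpow_natCast, ← Real.rpow_mul (by positivity),
          mul_one_div_cancel hqR.ne', Real.rpow_one]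
    _ ≤ ((B : ℝ) ^ p) ^ ((1 : ℝ) / q) :=
        Real.rpow_le_rpow (by positivity) h1 (by positivity)
    _ = (B : ℝ) ^ ((p : ℝ) / q) := by
        rw [← Real.rpow_natCast, ← Real.rpow_mul (by positivity)]
        congr 1
        ring

/-- A rational upper bound for a rational power, from an inequality of natural numbers. -/
theorem rpow_nat_upper {c d B p q : ℕ} (hd : 0 < d) (hq : 0 < q)
    (h : B ^ p * d ^ q ≤ c ^ q) : (B : ℝ) ^ ((p : ℝ) / q) ≤ (c : ℝ) / d := by
  have hdR : (0 : ℝ) < d := by exact_mod_cast hd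
  have hqR : (0 : ℝ) < q := by exact_mod_cast hq
  have h1 : (B : ℝ) ^ p ≤ ((c : ℝ) / d) ^ q := by
    rw [div_pow, le_div_iff₀ (pow_pos hdR q)]
    exact_mod_cast h
  calc (B : ℝ) ^ ((p : ℝ) / q) = ((B : ℝ) ^ p) ^ ((1 : ℝ) / q) := by
        rw [← Real.rpow_natCast, ← Real.rpow_mul (by positivity)]
        congr 1
        ring
    _ ≤ (((c : ℝ) / d) ^ q) ^ ((1 : ℝ) / q) :=
        Real.rpow_le_rpow (by positivity) h1 (by positivity)
    _ = (c : ℝ) / d := by
        rw [← Real.rpow_natCast, ← Real.rpow_mul (by positivity),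
          mul_one_div_cancel hqR.ne', Real.rpow_one]

theorem root_nat_lower :
    (1063268501 : ℕ) ^ 1000000 ≤ 25 ^ 734397 * (100000000 ^ 1000000) := by
  decide +kernel

theorem root_nat_upper :
    (42025 : ℕ) ^ 734397 * (10000 ^ 1000000) ≤ 24859375 ^ 1000000 := by
  decide +kernel

theorem root_real_lower : ((1063268501 : ℕ) : ℝ) / ((100000000 : ℕ) : ℝ) ≤
    ((25 : ℕ) : ℝ) ^ (((734397 : ℕ) : ℝ) / ((1000000 : ℕ) : ℝ)) :=
  rpow_nat_lower (by norm_num) (by norm_num) root_nat_lower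

theorem root_real_upper : ((42025 : ℕ) : ℝ) ^ (((734397 : ℕ) : ℝ) / ((1000000 : ℕ) : ℝ)) ≤
    ((24859375 : ℕ) : ℝ) / ((10000 : ℕ) : ℝ) :=
  rpow_nat_upper (by norm_num) (by norm_num) root_nat_upper

/-- The exponent `0.734397` satisfies `42025 ^ γ ≤ 41 * 25 ^ γ + 2050`. -/
theorem root_instance :
    (42025 : ℝ) ^ ((734397 : ℝ) / 1000000) ≤
      41 * (25 : ℝ) ^ ((734397 : ℝ) / 1000000) + 2050 := by
  have hL := root_real_lower
  have hU := root_real_upper
  push_cast at hL hU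
  generalize (25 : ℝ) ^ ((734397 : ℝ) / 1000000) = x at hL ⊢
  generalize (42025 : ℝ) ^ ((734397 : ℝ) / 1000000) = y at hU ⊢
  linarith

end Vale.Agent.Lib.P042
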